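import Vale.Agent.P305BA.Par

/-!
# Building a level: the numeric facts
-/

namespace Vale.Agent.P305BA

open Vale.Agent.P305CV

/-- The bound for the length of the cycle of an object. -/
abbrev Mn (γ k : ℕ) : ℕ := 3 * (k + 1) * (γ + 1)

/-- The numeric facts: `γ₀`, `Λ₀` come from the router, `γ`, `Λ` are the bounds of the level. -/
structure Num (b k γ₀ Λ₀ γ Λ B : ℕ) : Prop where
  dn : 16 * (b + 2) + 16 ≤ B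
  ps : PS (b + 2) (Dn b + 1) ≤ B
  mc : 2 ^ (b + 2 + 2) + (8 * (b + 2) + 16) * PS (b + 2) (Dn b) + 2 ^ b + Dn b ≤ B
  lv : (Jn b * (2 * 2 ^ b) + 1) * (2 ^ b + 1) ≤ B
  ob : Jn b * 2 ^ b + Jn b ^ 2 * (2 * 2 ^ b) ≤ B
  tab : Mn γ₀ k * (k * 2 ^ b) ≤ B
  g0 : γ₀ ≤ γ
  gJ : 10 * (Jn b + 1) ≤ γ
  snd : (2 * Dn b + 1 + 4 * (b + 2 + 1) * Dn b) *
    (12 * (γ₀ + 1) * (16 * (b + 2) + 16) ^ 2) ≤ γ
  l0 : Λ₀ ≤ Λ
  pl : 108 * (Jn b + 1) ^ 4 * (k + 1) ^ 4 * (γ₀ + 1) ^ 2 * (Λ₀ + 1) ≤ Λ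
  tm : 130 * (Dn b + 1) * (b + 2 + 1) ^ 2 + 100 * (Dn b + 1) + 400 * (Jn b + 1) ^ 2 +
    (10 * (k + 1) + 1) * Λ₀ + 42 * (Mn γ₀ k + 1) ^ 2 * (Jn b + 1) ^ 2 ≤ Λ

theorem sm_g (c : ℕ) : Sm fun p => (p.b + 2) ^ (c * p.d) :=
  (show Po fun p => p.b + 2 by fun_prop).powd c

theorem lg_L (c : ℕ) : Lg fun p => ((p.b + 2) * p.k) ^ (c * p.d) :=
  (show Pk fun p => (p.b + 2) * p.k by fun_prop).powd c

theorem lg_M (c : ℕ) : Lg fun p => Mn ((p.b + 2) ^ (c * p.d)) p.k :=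
  (show Lg fun p => 3 * (p.k + 1) by fun_prop).mul ((sm_g c).lg.add (Lg.const 1))

theorem wd_M (c : ℕ) : Wd fun p => Mn ((p.b + 2) ^ (c * p.d)) p.k :=
  (show Wd fun p => 3 * (p.k + 1) by fun_prop).mul ((sm_g c).wd.add (Wd.const 1))

theorem wd_mc : Wd fun p => 2 ^ (p.b + 2 + 2) + (8 * (p.b + 2) + 16) * PS (p.b + 2) (Dn p.b) +
    2 ^ p.b + Dn p.b :=
  ((((Wd.lin 1 4).add ((show Wd fun p => 8 * (p.b + 2) + 16 by fun_prop).mul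
    (wd_PS 0))).add Wd.two).add po_Dn.wd).mono fun p _ => by simp

theorem wd_lv : Wd fun p => (Jn p.b * (2 * 2 ^ p.b) + 1) * (2 ^ p.b + 1) :=
  ((po_Jn.wd.mul ((Wd.const 2).mul Wd.two)).add (Wd.const 1)).mul (Wd.two.add (Wd.const 1))

theorem wd_ob : Wd fun p => Jn p.b * 2 ^ p.b + Jn p.b ^ 2 * (2 * 2 ^ p.b) :=
  (po_Jn.wd.mul Wd.two).add ((po_Jn.wd.pow 2).mul ((Wd.const 2).mul Wd.two))

theorem sm_snd (c : ℕ) : Sm fun p => (2 * Dn p.b + 1 + 4 * (p.b + 2 + 1) * Dn p.b) *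
    (12 * ((p.b + 2) ^ (c * p.d) + 1) * (16 * (p.b + 2) + 16) ^ 2) := by
  have pD := po_Dn
  exact (show Po fun p => 2 * Dn p.b + 1 + 4 * (p.b + 2 + 1) * Dn p.b by
    fun_prop).sm.mul (((Sm.const 12).mul ((sm_g c).add (Sm.const 1))).mul
      (show Po fun p => (16 * (p.b + 2) + 16) ^ 2 by fun_prop).sm)

theorem lg_pl (c : ℕ) : Lg fun p => 108 * (Jn p.b + 1) ^ 4 * (p.k + 1) ^ 4 *
    ((p.b + 2) ^ (c * p.d) + 1) ^ 2 * (((p.b + 2) * p.k) ^ (c * p.d) + 1) := by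
  have pJ := po_Jn
  exact (((show Po fun p => 108 * (Jn p.b + 1) ^ 4 by fun_prop).lg.mul
    (show Pk fun p => (p.k + 1) ^ 4 by fun_prop).lg).mul
      (((sm_g c).lg.add (Lg.const 1)).pow 2)).mul ((lg_L c).add (Lg.const 1))

theorem lg_tm (c : ℕ) : Lg fun p => 130 * (Dn p.b + 1) * (p.b + 2 + 1) ^ 2 + 100 * (Dn p.b + 1) +
    400 * (Jn p.b + 1) ^ 2 + (10 * (p.k + 1) + 1) * ((p.b + 2) * p.k) ^ (c * p.d) +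
    42 * (Mn ((p.b + 2) ^ (c * p.d)) p.k + 1) ^ 2 * (Jn p.b + 1) ^ 2 := by
  have pD := po_Dn
  have pJ := po_Jn
  exact ((show Po fun p => 130 * (Dn p.b + 1) * (p.b + 2 + 1) ^ 2 +
    100 * (Dn p.b + 1) + 400 * (Jn p.b + 1) ^ 2 by fun_prop).lg.add
      ((show Lg fun p => 10 * (p.k + 1) + 1 by fun_prop).mul (lg_L c))).add
      (((Lg.const 42).mul (((lg_M c).add (Lg.const 1)).pow 2)).mul
        (show Po fun p => (Jn p.b + 1) ^ 2 by fun_prop).lg)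

theorem exists_num (c₀ : ℕ) : ∃ c, c₀ ≤ c ∧ ∀ b d q k B : ℕ, Pr.OK ⟨b, d, q, k⟩ →
    2 ^ (c * (b + 1)) ≤ B → Num b k ((b + 2) ^ (c₀ * d)) (((b + 2) * k) ^ (c₀ * d))
      ((b + 2) ^ (c * d)) (((b + 2) * k) ^ (c * d)) B := by
  obtain ⟨c1, h1⟩ := (show Wd fun p => 16 * (p.b + 2) + 16 by fun_prop).out
  obtain ⟨c2, h2⟩ := (wd_PS 1).out
  obtain ⟨c3, h3⟩ := wd_mc.out
  obtain ⟨c4, h4⟩ := wd_lv.out
  obtain ⟨c5, h5⟩ := wd_ob.out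
  obtain ⟨c6, h6⟩ := ((wd_M c₀).mul (Wd.k.mul Wd.two)).out
  obtain ⟨c7, h7⟩ := (sm_g c₀).out
  obtain ⟨c8, h8⟩ := ((Po.const 10).mul (po_Jn.add (Po.const 1))).sm.out
  obtain ⟨c9, h9⟩ := (sm_snd c₀).out
  obtain ⟨c10, h10⟩ := (lg_L c₀).out
  obtain ⟨c11, h11⟩ := (lg_pl c₀).out
  obtain ⟨c12, h12⟩ := (lg_tm c₀).out
  obtain ⟨c, e0, e1, e2, e3, e4, e5, e6, e7, e8, e9, e10, e11, e12⟩ : ∃ c, c₀ ≤ c ∧ c1 ≤ c ∧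
      c2 ≤ c ∧ c3 ≤ c ∧ c4 ≤ c ∧ c5 ≤ c ∧ c6 ≤ c ∧ c7 ≤ c ∧ c8 ≤ c ∧ c9 ≤ c ∧ c10 ≤ c ∧ c11 ≤ c ∧
      c12 ≤ c := ⟨c₀ + c1 + c2 + c3 + c4 + c5 + c6 + c7 + c8 + c9 + c10 + c11 + c12, by omega⟩
  refine ⟨c, e0, fun b d q k B h hB => ?_⟩
  have a1 := (h1 c e1 _ h).trans hB
  have a2 := (h2 c e2 _ h).trans hB
  have a3 := (h3 c e3 _ h).trans hB
  have a4 := (h4 c e4 _ h).trans hB
  have a5 := (h5 c e5 _ h).trans hB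
  have a6 := (h6 c e6 _ h).trans hB
  have a7 := h7 c e7 _ h
  have a8 := h8 c e8 _ h
  have a9 := h9 c e9 _ h
  have a10 := h10 c e10 _ h
  have a11 := h11 c e11 _ h
  have a12 := h12 c e12 _ h
  exact ⟨a1, a2, a3, a4, a5, a6, a7, a8, a9, a10, a11, a12⟩

variable {b k γ₀ Λ₀ γ Λ B g nv nc : ℕ}

theorem three_le (h : g ≤ 2 ^ b) : 3 * g ≤ 2 ^ (b + 2) := by rw [pow_add]; omega

theorem N_le (b : ℕ) : 2 ^ b + 1 ≤ 2 ^ (b + 1) := by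
  have := Nat.one_le_two_pow (n := b)
  rw [pow_succ]; omega

theorem Dn_le_pow (b : ℕ) : Dn b ≤ 2 ^ b := (Dn_le b).trans Nat.lt_two_pow_self

/-- The top scale is large enough. -/
theorem top_le (h : g ≤ 2 ^ b) (hv : nv ≤ 2 * g) : nv * 2 ^ b ≤ PS (b + 2) (Dn b) := by
  refine le_trans ?_ (le_PS b)
  rw [show 2 ^ (2 * b + 1) = 2 * 2 ^ b * 2 ^ b by ring]
  exact Nat.mul_le_mul_right _ (by omega)

theorem Num.lv' (h : Num b k γ₀ Λ₀ γ Λ B) (hg : g ≤ 2 ^ b) (hv : nv ≤ 2 * g)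
    (hc : nc ≤ Jn b * nv) : (nc + 1) * (2 ^ b + 1) ≤ B ∧ nc ≤ B := by
  have a : nc ≤ Jn b * (2 * 2 ^ b) := hc.trans (Nat.mul_le_mul_left _ (by omega))
  have a1 : (nc + 1) * (2 ^ b + 1) ≤ B := (Nat.mul_le_mul_right _ (by omega)).trans h.lv
  exact ⟨a1, le_trans (by nlinarith [Nat.zero_le (2 ^ b)]) a1⟩

theorem Num.ob' (h : Num b k γ₀ Λ₀ γ Λ B) {no : ℕ} (hg : g ≤ 2 ^ b) (hv : nv ≤ 2 * g)
    (ho : no ≤ Jn b * g + Jn b ^ 2 * nv) : no ≤ B :=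
  (ho.trans (add_le_add (Nat.mul_le_mul_left _ hg) (Nat.mul_le_mul_left _ (by omega)))).trans h.ob

theorem Num.gJ' (h : Num b k γ₀ Λ₀ γ Λ B) : 2 * Jn b + 2 ≤ γ := le_trans (by omega) h.gJ

theorem Num.two (h : Num b k γ₀ Λ₀ γ Λ B) : 2 ^ b + 1 ≤ B :=
  le_trans (Nat.le_mul_of_pos_left _ (by omega)) h.lv

/-- The items for the next level. -/
theorem Num.kl (h : Num b k γ₀ Λ₀ γ Λ B) {nK nS : ℕ} (hK : nK ≤ 7 * nS)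
    (hS : k * (7 * nS) ^ 2 ≤ (γ₀ * g) ^ 2) : k * nK ^ 2 ≤ (γ * g) ^ 2 :=
  ((Nat.mul_le_mul_left _ (Nat.pow_le_pow_left hK _)).trans hS).trans
    (Nat.pow_le_pow_left (Nat.mul_le_mul_right _ h.g0) _)

/-- The total time; `t₀` is the time of the small steps. -/
theorem Num.time (h : Num b k γ₀ Λ₀ γ Λ B) {q no ns nP nS nC t₀ t₁ t₂ t₃ t₄ : ℕ} (hq : 1 ≤ q)
    (hv : nv ≤ 2 * g) (hc : nc ≤ Jn b * nv) (ho : no ≤ Jn b * g + Jn b ^ 2 * nv)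
    (hs : ns ≤ Jn b * nv) (hP : nP ≤ 6 * nS) (hC : nC ≤ no)
    (h0 : t₀ ≤ 100 * (g + Dn b + 1 + nc))
    (h1 : t₁ ≤ 130 * (Dn b + 1) * (b + 2 + 1) ^ 2 * (g + 1))
    (h2 : t₂ ≤ 40 * (Jn b + 1) ^ 2 * (nv + g + 1)) (h3 : t₃ + 6 * nS ≤ q * Λ₀ * (g + 1))
    (h4 : t₄ ≤ 13 * (Mn γ₀ k + 1) ^ 2 * no + 10 * (k + 1) * nP + 8 * (g + ns) +
      7 * (Jn b + 1) * nc) :
    t₀ + t₁ + t₂ + t₃ + t₄ + nP + nC ≤ q * Λ * (g + 1) := by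
  have tm := h.tm
  generalize Jn b = J at *
  generalize Dn b = D at *
  generalize Mn γ₀ k + 1 = m at *
  generalize 130 * (D + 1) * (b + 2 + 1) ^ 2 = A at *
  have a1 : nc ≤ 2 * (J * g) := hc.trans (by nlinarith)
  have a2 : ns ≤ 2 * (J * g) := hs.trans (by nlinarith)
  have a3 : no ≤ 3 * ((J + 1) ^ 2 * g) := ho.trans (by
    nlinarith [Nat.mul_le_mul_left (J ^ 2) hv, Nat.zero_le (J * g), Nat.zero_le (J ^ 2 * g)])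
  have a4 : t₂ ≤ 120 * ((J + 1) ^ 2 * (g + 1)) := h2.trans (by
    nlinarith [Nat.mul_le_mul_left ((J + 1) ^ 2) (show nv + g + 1 ≤ 3 * (g + 1) by omega)])
  have a5 : (k + 1) * nP ≤ (k + 1) * (q * Λ₀ * (g + 1)) := Nat.mul_le_mul_left _ (by omega)
  have a6 : (J + 1) * nc ≤ (J + 1) * (2 * (J * g)) := Nat.mul_le_mul_left _ a1
  have a7 : m ^ 2 * no ≤ m ^ 2 * (3 * ((J + 1) ^ 2 * g)) := Nat.mul_le_mul_left _ a3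
  have b1 : t₀ + t₁ + t₂ + (13 * m ^ 2 * no + 8 * (g + ns) + 7 * (J + 1) * nc) + nC ≤
      (A + 100 * (D + 1) + 400 * (J + 1) ^ 2 + 42 * m ^ 2 * (J + 1) ^ 2) * (g + 1) := by
    linarith [Nat.zero_le (D * g), Nat.zero_le (J * g), Nat.zero_le (J ^ 2 * g),
      Nat.zero_le (m ^ 2 * (J + 1) ^ 2), Nat.zero_le (m ^ 2 * (J + 1) ^ 2 * g), Nat.zero_le (J ^ 2)]
  have b2 := b1.trans (Nat.le_mul_of_pos_left _ hq)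
  have b3 := Nat.mul_le_mul_left (q * (g + 1)) tm
  linarith

end Vale.Agent.P305BA
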