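import Vale.Agent.P305CV.Multi

/-!
# Building a level: parameters and classes of growth
-/

namespace Vale.Agent.P305BA

open Vale.Agent.P305E Vale.Agent.P305CV

/-- The parameters `(b, d, q, k)`. -/
structure Pr where
  b : ℕ
  d : ℕ
  q : ℕ
  k : ℕ

/-- The hypotheses on the parameters. -/
structure Pr.OK (p : Pr) : Prop where
  k1 : 1 ≤ p.k
  k2 : p.k ≤ 2 ^ p.b
  d1 : 1 ≤ p.d
  d2 : p.d ≤ p.b
  d3 : (p.b + 2) ^ p.d ≤ 2 ^ p.b
  q2 : p.q ≤ 2 ^ p.b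

/-- `f` is bounded by a fixed power of `β`. -/
def Bd (β f : Pr → ℕ) : Prop := ∃ c, ∀ p : Pr, p.OK → f p ≤ β p ^ c

section Bd
variable {β β' f g : Pr → ℕ}

theorem Bd.mono (h : Bd β g) (e : ∀ p : Pr, p.OK → f p ≤ g p) : Bd β f :=
  let ⟨c, hc⟩ := h
  ⟨c, fun p hp => (e p hp).trans (hc p hp)⟩

theorem Bd.base : Bd β β := ⟨1, fun _ _ => by simp⟩

theorem Bd.trans (h : Bd β' f) (h' : Bd β β') : Bd β f :=
  let ⟨c, hc⟩ := h
  let ⟨c', hc'⟩ := h'
  ⟨c' * c, fun p hp => (hc p hp).trans (by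
    rw [pow_mul]; exact Nat.pow_le_pow_left (hc' p hp) _)⟩

theorem Bd.const (hβ : ∀ p : Pr, p.OK → 2 ≤ β p) (a : ℕ) : Bd β fun _ => a :=
  ⟨a, fun p hp => Nat.lt_two_pow_self.le.trans (Nat.pow_le_pow_left (hβ p hp) _)⟩

theorem Bd.mul (h : Bd β f) (h' : Bd β g) : Bd β fun p => f p * g p :=
  let ⟨c, hc⟩ := h
  let ⟨c', hc'⟩ := h'
  ⟨c + c', fun p hp => by rw [pow_add]; exact Nat.mul_le_mul (hc p hp) (hc' p hp)⟩

theorem Bd.add (hβ : ∀ p : Pr, p.OK → 2 ≤ β p) (h : Bd β f) (h' : Bd β g) :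
    Bd β fun p => f p + g p := by
  obtain ⟨c, hc⟩ := h
  obtain ⟨c', hc'⟩ := h'
  refine ⟨c + c' + 1, fun p hp => ?_⟩
  have a := hβ p hp
  have a1 := (hc p hp).trans (Nat.pow_le_pow_right (by omega) (Nat.le_add_right c c'))
  have a2 := (hc' p hp).trans (Nat.pow_le_pow_right (by omega) (Nat.le_add_left c' c))
  rw [pow_succ]
  nlinarith

theorem Bd.pow (h : Bd β f) (n : ℕ) : Bd β fun p => f p ^ n :=
  let ⟨c, hc⟩ := h
  ⟨c * n, fun p hp => by rw [pow_mul]; exact Nat.pow_le_pow_left (hc p hp) _⟩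

theorem Bd.powd (h : Bd β f) (n : ℕ) : Bd (fun p => β p ^ p.d) fun p => f p ^ (n * p.d) :=
  let ⟨c, hc⟩ := h
  ⟨c * n, fun p hp => (Nat.pow_le_pow_left (hc p hp) _).trans (le_of_eq (by ring))⟩

end Bd

/-- Polynomial in `b`. -/
@[fun_prop] def Po (f : Pr → ℕ) : Prop := Bd (fun p => p.b + 2) f
/-- Polynomial in `b` and `k`. -/
@[fun_prop] def Pk (f : Pr → ℕ) : Prop := Bd (fun p => (p.b + 2) * p.k) f
/-- At most `(b + 2) ^ (c * d)`. -/
@[fun_prop] def Sm (f : Pr → ℕ) : Prop := Bd (fun p => (p.b + 2) ^ p.d) f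
/-- At most `((b + 2) * k) ^ (c * d)`. -/
@[fun_prop] def Lg (f : Pr → ℕ) : Prop := Bd (fun p => ((p.b + 2) * p.k) ^ p.d) f
/-- At most `2 ^ (c * (b + 1))`. -/
@[fun_prop] def Wd (f : Pr → ℕ) : Prop := Bd (fun p => 2 ^ (p.b + 1)) f

theorem po2 (p : Pr) (_ : p.OK) : 2 ≤ p.b + 2 := by omega
theorem pk2 (p : Pr) (h : p.OK) : 2 ≤ (p.b + 2) * p.k := by have := h.k1; nlinarith
theorem sm2 (p : Pr) (h : p.OK) : 2 ≤ (p.b + 2) ^ p.d :=
  (po2 p h).trans (Nat.le_self_pow (by have := h.d1; omega) _)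
theorem lg2 (p : Pr) (h : p.OK) : 2 ≤ ((p.b + 2) * p.k) ^ p.d :=
  (pk2 p h).trans (Nat.le_self_pow (by have := h.d1; omega) _)
theorem wd2 (p : Pr) (_ : p.OK) : 2 ≤ 2 ^ (p.b + 1) := Nat.le_self_pow (by omega) _

variable {f g : Pr → ℕ}

@[fun_prop] theorem Po.const (a : ℕ) : Po fun _ => a := Bd.const po2 a
@[fun_prop] theorem Pk.const (a : ℕ) : Pk fun _ => a := Bd.const pk2 a
@[fun_prop] theorem Sm.const (a : ℕ) : Sm fun _ => a := Bd.const sm2 a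
@[fun_prop] theorem Lg.const (a : ℕ) : Lg fun _ => a := Bd.const lg2 a
@[fun_prop] theorem Wd.const (a : ℕ) : Wd fun _ => a := Bd.const wd2 a
@[fun_prop] theorem Po.add (h : Po f) (h' : Po g) : Po fun p => f p + g p := Bd.add po2 h h'
@[fun_prop] theorem Pk.add (h : Pk f) (h' : Pk g) : Pk fun p => f p + g p := Bd.add pk2 h h'
@[fun_prop] theorem Sm.add (h : Sm f) (h' : Sm g) : Sm fun p => f p + g p := Bd.add sm2 h h'
@[fun_prop] theorem Lg.add (h : Lg f) (h' : Lg g) : Lg fun p => f p + g p := Bd.add lg2 h h'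
@[fun_prop] theorem Wd.add (h : Wd f) (h' : Wd g) : Wd fun p => f p + g p := Bd.add wd2 h h'
@[fun_prop] theorem Po.mul (h : Po f) (h' : Po g) : Po fun p => f p * g p := Bd.mul h h'
@[fun_prop] theorem Pk.mul (h : Pk f) (h' : Pk g) : Pk fun p => f p * g p := Bd.mul h h'
@[fun_prop] theorem Sm.mul (h : Sm f) (h' : Sm g) : Sm fun p => f p * g p := Bd.mul h h'
@[fun_prop] theorem Lg.mul (h : Lg f) (h' : Lg g) : Lg fun p => f p * g p := Bd.mul h h'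
@[fun_prop] theorem Wd.mul (h : Wd f) (h' : Wd g) : Wd fun p => f p * g p := Bd.mul h h'
@[fun_prop] theorem Po.pow (h : Po f) (n : ℕ) : Po fun p => f p ^ n := Bd.pow h n
@[fun_prop] theorem Pk.pow (h : Pk f) (n : ℕ) : Pk fun p => f p ^ n := Bd.pow h n
theorem Sm.pow (h : Sm f) (n : ℕ) : Sm fun p => f p ^ n := Bd.pow h n
theorem Lg.pow (h : Lg f) (n : ℕ) : Lg fun p => f p ^ n := Bd.pow h n
theorem Wd.pow (h : Wd f) (n : ℕ) : Wd fun p => f p ^ n := Bd.pow h n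
theorem Po.mono (h : Po g) (e : ∀ p : Pr, p.OK → f p ≤ g p) : Po f := Bd.mono h e
theorem Pk.mono (h : Pk g) (e : ∀ p : Pr, p.OK → f p ≤ g p) : Pk f := Bd.mono h e
theorem Sm.mono (h : Sm g) (e : ∀ p : Pr, p.OK → f p ≤ g p) : Sm f := Bd.mono h e
theorem Lg.mono (h : Lg g) (e : ∀ p : Pr, p.OK → f p ≤ g p) : Lg f := Bd.mono h e
theorem Wd.mono (h : Wd g) (e : ∀ p : Pr, p.OK → f p ≤ g p) : Wd f := Bd.mono h e

/-! ### Inclusions -/

theorem Po.pk (h : Po f) : Pk f :=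
  Bd.trans h (Bd.base.mono fun p hp => by have := hp.k1; nlinarith)
theorem Po.sm (h : Po f) : Sm f :=
  Bd.trans h (Bd.base.mono fun p hp => Nat.le_self_pow (by have := hp.d1; omega) _)
theorem Pk.lg (h : Pk f) : Lg f :=
  Bd.trans h (Bd.base.mono fun p hp => Nat.le_self_pow (by have := hp.d1; omega) _)
theorem Sm.lg (h : Sm f) : Lg f :=
  Bd.trans h (Bd.base.mono fun p hp => Nat.pow_le_pow_left (by have := hp.k1; nlinarith) _)
theorem Sm.wd (h : Sm f) : Wd f :=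
  Bd.trans h (Bd.base.mono fun p hp => hp.d3.trans (Nat.pow_le_pow_right (by omega) (by omega)))
theorem Po.lg (h : Po f) : Lg f := h.sm.lg
theorem Po.wd (h : Po f) : Wd f := h.sm.wd
theorem Po.powd (h : Po f) (n : ℕ) : Sm fun p => f p ^ (n * p.d) := Bd.powd h n
theorem Pk.powd (h : Pk f) (n : ℕ) : Lg fun p => f p ^ (n * p.d) := Bd.powd h n

/-! ### The parameters themselves -/

@[fun_prop] theorem Po.b : Po Pr.b := Bd.base.mono fun _ _ => Nat.le_add_right _ _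
@[fun_prop] theorem Po.d : Po Pr.d := Po.b.mono fun _ hp => hp.d2
@[fun_prop] theorem Pk.b : Pk Pr.b := Po.b.pk
@[fun_prop] theorem Pk.d : Pk Pr.d := Po.d.pk
@[fun_prop] theorem Pk.k : Pk Pr.k := Bd.base.mono fun p _ => by nlinarith
@[fun_prop] theorem Sm.b : Sm Pr.b := Po.b.sm
@[fun_prop] theorem Sm.d : Sm Pr.d := Po.d.sm
@[fun_prop] theorem Lg.b : Lg Pr.b := Po.b.lg
@[fun_prop] theorem Lg.d : Lg Pr.d := Po.d.lg
@[fun_prop] theorem Lg.k : Lg Pr.k := Pk.k.lg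
@[fun_prop] theorem Wd.b : Wd Pr.b := Po.b.wd
@[fun_prop] theorem Wd.d : Wd Pr.d := Po.d.wd
theorem Wd.two : Wd fun p => 2 ^ p.b :=
  Bd.base.mono fun p _ => Nat.pow_le_pow_right (by omega) (by omega)
@[fun_prop] theorem Wd.k : Wd Pr.k := Wd.two.mono fun _ hp => hp.k2
@[fun_prop] theorem Wd.q : Wd Pr.q := Wd.two.mono fun _ hp => hp.q2
theorem Pk.wd (h : Pk f) : Wd f := Bd.trans h (show Wd _ by fun_prop)
theorem Wd.lin (a a' : ℕ) : Wd fun p => 2 ^ (a * p.b + a') :=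
  ((Wd.two.pow a).mul (Wd.const (2 ^ a'))).mono fun p _ => le_of_eq (by ring)

/-! ### The final forms -/

theorem Sm.out (h : Sm f) : ∃ c, ∀ c', c ≤ c' → ∀ p : Pr, p.OK → f p ≤ (p.b + 2) ^ (c' * p.d) :=
  let ⟨c, hc⟩ := h
  ⟨c, fun c' e p hp => (hc p hp).trans (by
    rw [mul_comm c', pow_mul]; exact Nat.pow_le_pow_right (by positivity) e)⟩

theorem Lg.out (h : Lg f) :
    ∃ c, ∀ c', c ≤ c' → ∀ p : Pr, p.OK → f p ≤ ((p.b + 2) * p.k) ^ (c' * p.d) :=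
  let ⟨c, hc⟩ := h
  ⟨c, fun c' e p hp => (hc p hp).trans (by
    rw [mul_comm c', pow_mul]; exact Nat.pow_le_pow_right (le_trans (by omega) (lg2 p hp)) e)⟩

theorem Wd.out (h : Wd f) : ∃ c, ∀ c', c ≤ c' → ∀ p : Pr, p.OK → f p ≤ 2 ^ (c' * (p.b + 1)) :=
  let ⟨c, hc⟩ := h
  ⟨c, fun c' e p hp => (hc p hp).trans (by
    rw [mul_comm c', pow_mul]; exact Nat.pow_le_pow_right (by positivity) e)⟩

/-! ### The number of scales -/

/-- The number of scales for covers with the parameter `b + 2`. -/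
def Dn (b : ℕ) : ℕ := (2 * b + 1) / (Nat.size (16 * (b + 2) + 16) - 1) + 1

/-- The bound for the number of clusters of a vertex. -/
def Jn (b : ℕ) : ℕ := (Dn b + 1) * (b + 2 + 1)

theorem six_le_size (b : ℕ) : 6 ≤ Nat.size (16 * (b + 2) + 16) :=
  Nat.lt_size.2 (by norm_num; omega)

theorem Dn_pos (b : ℕ) : 1 ≤ Dn b := Nat.le_add_left _ _

theorem Dn_le (b : ℕ) : Dn b ≤ b + 1 := by
  have h := six_le_size b
  have h1 : (2 * b + 1) / (Nat.size (16 * (b + 2) + 16) - 1) ≤ (2 * b + 1) / 5 :=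
    Nat.div_le_div_left (by omega) (by omega)
  unfold Dn
  omega

theorem Jn_le (b : ℕ) : Jn b ≤ (b + 3) ^ 2 := by
  have := Dn_le b
  unfold Jn
  nlinarith

theorem Jn_pos (b : ℕ) : 1 ≤ Jn b := by unfold Jn; nlinarith

theorem le_PS (b : ℕ) : 2 ^ (2 * b + 1) ≤ PS (b + 2) (Dn b) := by
  have h := six_le_size b
  have h1 : 2 ^ (Nat.size (16 * (b + 2) + 16) - 1) ≤ 16 * (b + 2) + 16 :=
    Nat.lt_size.1 (by omega)
  refine le_trans ?_ (Nat.pow_le_pow_left h1 _)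
  rw [← pow_mul]
  exact Nat.pow_le_pow_right (by omega) (Nat.lt_mul_div_succ _ (by omega)).le

theorem PS_le (b : ℕ) : PS (b + 2) (Dn b) ≤ 2 ^ (4 * b + 2) * (16 * (b + 2) + 16) := by
  have h := six_le_size b
  have h1 : 16 * (b + 2) + 16 ≤ 2 ^ Nat.size (16 * (b + 2) + 16) := (Nat.lt_size_self _).le
  rw [Dn, PS_succ]
  refine Nat.mul_le_mul_right _ ((Nat.pow_le_pow_left h1 _).trans ?_)
  rw [← pow_mul]
  refine Nat.pow_le_pow_right (by omega) ?_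
  have h2 := Nat.mul_div_le (2 * b + 1) (Nat.size (16 * (b + 2) + 16) - 1)
  obtain ⟨s, hs⟩ : ∃ s, Nat.size (16 * (b + 2) + 16) = s + 1 :=
    ⟨Nat.size (16 * (b + 2) + 16) - 1, by omega⟩
  rw [hs] at h2 h ⊢
  simp only [Nat.add_sub_cancel] at h2 ⊢
  have h3 : (2 * b + 1) / s ≤ s * ((2 * b + 1) / s) := Nat.le_mul_of_pos_left _ (by omega)
  nlinarith

theorem po_Dn : Po fun p => Dn p.b :=
  (show Po fun p => p.b + 1 by fun_prop).mono fun p _ => Dn_le p.b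

theorem po_Jn : Po fun p => Jn p.b :=
  (show Po fun p => (p.b + 3) ^ 2 by fun_prop).mono fun p _ => Jn_le p.b

theorem wd_PS (a : ℕ) : Wd fun p => PS (p.b + 2) (Dn p.b + a) := by
  refine (((Wd.lin 4 2).mul (show Po fun p => 16 * (p.b + 2) + 16 by fun_prop).wd).mul
    (show Po fun p => (16 * (p.b + 2) + 16) ^ a by fun_prop).wd).mono fun p _ => ?_
  rw [PS, pow_add]
  exact Nat.mul_le_mul_right _ (PS_le p.b)

/-- The program for the number of scales. -/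
def dnP (b : ℕ) : M ℕ :=
  num (16 * (b + 2) + 16) >>= fun x => num ((2 * b + 1) / (Nat.size x - 1) + 1)

@[fun_prop] theorem impl_dnP {α : Type} [Rep α] {b : α → ℕ} (hb : Pure b) :
    Impl fun a => dnP (b a) := by
  unfold dnP; fun_prop

theorem dnP_tri {c : Cx} {b : ℕ} (h : 16 * (b + 2) + 16 ≤ c.B) :
    Tri c (dnP b) fun D t => D = Dn b ∧ t = 0 := by
  have := Dn_le b
  simp only [dnP, Tri_bind, Tri_num]
  exact ⟨h, by unfold Dn at this; omega, rfl, trivial⟩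

end Vale.Agent.P305BA
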